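import Vale.Agent.P232.GapPair.Bin7.Items0
import Vale.Agent.P232.GapPair.Bin7.Items1
import Vale.Agent.P232.GapPair.Bin7.Items2
import Vale.Agent.P232.GapPair.Bin7.Items3

/-! # P232: certificate for one small axis, the tree -/

namespace Vale.Agent.P232.GapPair.Bin7

/-- All items of the interval. -/
def items : List Item :=
  chunk0 ++ chunk1 ++ chunk2 ++ chunk3

def part0 : PTree := (.cutX 6750000 (.cutY 1060000 (.cutZ 1600000 (.cutZ 1200000 (.cutY 800000 (.cutZ 800000 (.pair 62 5 5) (.cutY 600000 (.pair 62 12 7) (.pair 62 24 7))) (.cutZ 800000 (.pair 62 52 5) (.cutY 900000 (.pair 62 53 7) (.pair 62 63 55)))) (.cutY 800000 (.cutY 600000 (.pair 62 12 8) (.pair 62 24 8)) (.cutY 900000 (.pair 62 10 8) (.cutZ 1400000 (.pair 62 63 28) (.pair 62 63 27))))) (.cutZ 2400000 (.cutY 800000 (.cutZ 2000000 (.cutY 600000 (.pair 62 12 13) (.pair 62 57 13)) (.cutY 600000 (.pair 62 18 14) (.pair 62 30 14)))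 (.cutZ 2000000 (.cutY 900000 (.cutZ 1800000 (.pair 62 10 35) (.pair 62 31 34)) (.cutZ 1800000 (.pair 62 64 35) (.cutY 1000000 (.pair 62 64 34) (.pair 62 59 34)))) (.cutY 900000 (.pair 62 17 14) (.cutZ 2200000 (.pair 62 65 40) (.pair 62 65 41))))) (.cutY 800000 (.cutZ 2800000 (.pair 62 18 44) (.pair 62 18 45)) (.cutZ 2800000 (.pair 62 60 61) (.pair 62 60 45))))) .graph) (.cutX 6800000 (.cutY 990000 (.cutZ 1600000 (.cutZ 1200000 (.cutY 800000 (.cutZ 800000 (.pair 66 5 5) (.cutY 600000 (.pair 66 12 7) (.pair 66 24 7))) (.cutZ 800000 (.pair 66 53 5) (.cutZ 1000000 (.pair 66 53 53) (.pair 66 53 9)))) (.cutY 800000 (.cutY 600000 (.pair 66 12 8) (.pair 66 24 8)) (.cutZ 1400000 (.pair 66 53 28) (.pair 66 10 27)))) (.cutZ 2400000 (.cutY 800000 (.cutZ 2000000 (.cutY 600000 (.pair 66 12 13) (.pair 66 57 13)) (.cutY 600000 (.pair 66 18 14) (.pair 66 30 14))) (.cutZ 2000000 (.cutZ 1800000 (.pair 66 10 35) (.cutY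 900000 (.pair 66 31 34) (.pair 66 65 34))) (.cutZ 2200000 (.cutY 900000 (.pair 66 17 40) (.pair 66 65 40)) (.pair 66 17 41)))) (.cutZ 2800000 (.cutY 800000 (.cutY 600000 (.pair 66 18 44) (.pair 66 30 44)) (.pair 66 17 61)) (.cutY 800000 (.pair 66 18 45) (.pair 66 17 45))))) .graph) (.cutX 6850000 (.cutY 910000 (.cutZ 1600000 (.cutZ 1200000 (.cutZ 800000 (.cutY 700000 (.pair 67 5 5) (.pair 67 68 5)) (.cutY 700000 (.pair 67 69 7) (.cutZ 1000000 (.pair 67 68 53) (.pair 67 68 9)))) (.cutY 700000 (.pair 67 69 8) (.cutZ 1400000 (.pair 67 68 28) (.pair 67 70 27)))) (.cutZ 2400000 (.cutZ 2000000 (.cutY 700000 (.pair 67 69 13) (.cutZ 1800000 (.pair 67 70 35) (.cutY 800000 (.pair 67 57 34) (.pair 67 31 34)))) (.cutY 700000 (.pair 67 71 14) (.cutZ 2200000 (.cutY 800000 (.pair 67 30 40) (.pair 67 17 40)) (.pair 67 72 41)))) (.cutZ 2800000 (.cutY 700000 (.pair 67 71 44) (.pair 67 72 44)) (.pair 67 73 45))))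 .graph) (.cutX 6900000 (.cutY 810000 (.cutZ 1600000 (.cutZ 1200000 (.cutZ 800000 (.pair 74 75 5) (.cutY 600000 (.pair 74 69 7) (.pair 74 76 7))) (.cutY 600000 (.pair 74 69 8) (.cutZ 1400000 (.pair 74 76 28) (.pair 74 76 27)))) (.cutZ 2400000 (.cutZ 2000000 (.cutY 600000 (.pair 74 69 13) (.cutZ 1800000 (.pair 74 76 35) (.pair 74 77 34))) (.cutY 600000 (.pair 74 71 14) (.cutZ 2200000 (.pair 74 78 79) (.pair 74 78 41)))) (.cutZ 2800000 (.cutY 600000 (.pair 74 71 44) (.pair 74 80 44)) (.pair 74 73 45)))) .graph) (.cutX 6950000 (.cutY 710000 (.cutZ 1600000 (.cutZ 1200000 (.cutZ 800000 (.pair 81 5 5) (.pair 81 82 7)) (.pair 81 82 8)) (.cutZ 2400000 (.cutZ 2000000 (.cutZ 1800000 (.pair 81 82 35) (.pair 81 82 83)) (.cutZ 2200000 (.pair 81 84 79) (.pair 81 84 41))) (.cutZ 2800000 (.pair 81 85 44) (.pair 81 85 45)))) .graph) (.cutX 7000000 (.cutY 600000 (.cutZ 1600000 (.pair 86 69 2) (.pair 86 71 3)) .graph)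 .graph))))))

def part1 : PTree := (.cutX 6600000 (.cutY 1180000 (.cutZ 1600000 (.cutY 800000 (.cutZ 1200000 (.cutZ 800000 (.pair 48 5 5) (.cutY 600000 (.pair 48 12 7) (.pair 48 24 7))) (.cutY 600000 (.pair 48 12 8) (.pair 48 24 8))) (.cutZ 1200000 (.cutZ 800000 (.cutY 1000000 (.pair 48 10 5) .empty) (.cutY 1000000 (.pair 48 10 7) (.cutZ 1000000 (.pair 48 9 10) (.pair 48 9 9)))) (.cutY 1000000 (.cutZ 1400000 (.pair 48 10 28) (.pair 48 10 27)) (.cutZ 1400000 (.pair 48 9 28) (.pair 48 49 27))))) (.cutZ 2400000 (.cutY 800000 (.cutZ 2000000 (.cutY 600000 (.pair 48 12 13) (.pair 48 24 13)) (.cutY 600000 (.pair 48 18 14) (.pair 48 30 14))) (.cutZ 2000000 (.cutY 1000000 (.cutZ 1800000 (.pair 48 10 35) (.pair 48 31 34)) (.cutZ 1800000 (.cutY 1100000 (.pair 48 26 35) (.pair 48 32 37)) (.cutY 1100000 (.pair 48 42 34) (.pair 48 32 39)))) (.cutY 1000000 (.cutZ 2200000 (.pair 48 17 40) (.pair 48 17 41)) (.cutZ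 2200000 (.pair 48 50 40) (.pair 48 50 41))))) (.cutY 800000 (.cutZ 2800000 (.pair 48 18 44) (.pair 48 18 45)) (.cutZ 2800000 (.cutY 1000000 (.pair 48 17 44) (.pair 48 50 44)) (.pair 48 20 45))))) .graph) (.cutX 6650000 (.cutY 1150000 (.cutZ 1600000 (.cutZ 1200000 (.cutY 800000 (.cutZ 800000 (.pair 51 5 5) (.cutY 600000 (.pair 51 12 7) (.pair 51 24 7))) (.cutZ 800000 (.pair 51 52 12) (.cutY 1000000 (.pair 51 53 7) (.pair 51 54 55)))) (.cutY 800000 (.cutY 600000 (.pair 51 12 8) (.pair 51 24 8)) (.cutY 1000000 (.cutZ 1400000 (.pair 51 53 28) (.pair 51 10 27)) (.cutZ 1400000 (.pair 51 54 28) (.pair 51 54 27))))) (.cutZ 2400000 (.cutY 800000 (.cutZ 2000000 (.cutY 600000 (.pair 51 12 13) (.pair 51 24 13)) (.cutY 600000 (.pair 51 18 14) (.pair 51 30 14))) (.cutZ 2000000 (.cutY 1000000 (.cutZ 1800000 (.pair 51 10 35) (.pair 51 31 34)) (.cutZ 1800000 (.cutY 1100000 (.pair 51 26 35) (.pair 51 32 37)) (.cutY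 1100000 (.pair 51 42 34) (.pair 51 32 39)))) (.cutY 1000000 (.cutZ 2200000 (.pair 51 17 40) (.pair 51 17 41)) (.cutZ 2200000 (.pair 51 50 40) (.pair 51 50 41))))) (.cutY 800000 (.cutZ 2800000 (.pair 51 18 44) (.pair 51 18 45)) (.cutZ 2800000 (.cutY 1000000 (.pair 51 17 44) (.pair 51 50 44)) (.pair 51 20 45))))) .graph) (.cutX 6700000 (.cutY 1110000 (.cutZ 1600000 (.cutZ 1200000 (.cutY 800000 (.cutZ 800000 (.pair 56 5 5) (.cutY 600000 (.pair 56 12 7) (.pair 56 24 7))) (.cutZ 800000 (.pair 56 52 5) (.cutY 1000000 (.pair 56 53 55) (.pair 56 54 55)))) (.cutY 800000 (.cutY 600000 (.pair 56 12 8) (.pair 56 24 8)) (.cutY 1000000 (.cutZ 1400000 (.pair 56 53 28) (.pair 56 10 27)) (.cutZ 1400000 (.pair 56 54 28) (.pair 56 54 27))))) (.cutZ 2400000 (.cutY 800000 (.cutZ 2000000 (.cutY 600000 (.pair 56 12 13) (.pair 56 57 13)) (.cutY 600000 (.pair 56 18 14) (.pair 56 30 14))) (.cutZ 2000000 (.cutY 1000000 (.cutZ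 1800000 (.pair 56 10 35) (.pair 56 31 34)) (.cutZ 1800000 (.pair 56 58 35) (.pair 56 59 34))) (.cutY 1000000 (.cutZ 2200000 (.pair 56 17 40) (.pair 56 17 41)) (.cutZ 2200000 (.pair 56 50 40) (.pair 56 50 41))))) (.cutY 800000 (.cutZ 2800000 (.pair 56 18 44) (.pair 56 18 45)) (.cutZ 2800000 (.pair 56 60 61) (.pair 56 60 45))))) .graph) part0)))

def part2 : PTree := (.cutX 5600000 (.cutX 5200000 (.base 19230765 0 [(4000,9997645),(241477,9856844),(906871,9451163),(1868395,8832078),(2935605,8089660),(3897129,6620635),(4562523,4797447),(4800000,3846158)]) (.cutZ 1600000 (.pair 0 1 2) (.pair 0 1 3))) (.cutX 6000000 (.cutZ 1600000 (.cutY 800000 (.cutZ 1200000 (.cutZ 800000 (.pair 4 5 6) (.pair 4 5 7)) (.pair 4 5 8)) (.cutZ 1200000 (.cutY 1000000 (.cutZ 800000 (.pair 4 7 5) (.pair 4 7 7)) (.cutZ 800000 .empty (.pair 4 9 7))) (.cutY 1000000 (.pair 4 10 8) (.pair 4 11 8)))) (.cutZ 2400000 (.cutY 800000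 (.cutZ 2000000 (.pair 4 12 13) (.pair 4 12 14)) (.cutZ 2000000 (.cutY 1000000 (.pair 4 10 13) (.pair 4 15 16)) (.cutY 1000000 (.pair 4 17 14) (.pair 4 15 14)))) (.cutY 800000 (.pair 4 18 19) (.pair 4 20 19)))) (.cutZ 1600000 (.cutY 800000 (.cutZ 1200000 (.cutX 6200000 (.cutZ 800000 (.pair 21 5 5) (.pair 21 12 7)) (.cutZ 800000 (.pair 22 5 5) (.cutX 6400000 (.pair 23 12 7) (.cutY 600000 (.pair 22 12 7) (.pair 22 24 7))))) (.cutX 6200000 (.pair 21 12 8) (.cutX 6400000 (.pair 23 12 8) (.cutY 600000 (.pair 22 12 8) (.pair 22 24 8))))) (.cutZ 1200000 (.cutX 6200000 (.cutY 1000000 (.cutZ 800000 (.pair 21 10 5) (.pair 21 10 7)) (.cutZ 800000 .empty (.pair 21 9 7))) (.cutY 1000000 (.cutZ 800000 (.pair 22 10 5) (.pair 22 10 7)) (.cutZ 800000 .empty (.cutX 6400000 (.cutY 1100000 (.pair 23 9 7) (.pair 23 25 7)) (.cutY 1100000 (.pair 22 26 7) (.cutZ 1000000 .empty (.pair 22 25 9))))))) (.cutX 6200000 (.cutY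 1000000 (.pair 21 10 8) (.cutY 1100000 (.pair 21 26 8) (.cutZ 1400000 (.pair 21 25 8) (.pair 21 25 27)))) (.cutY 1000000 (.cutX 6400000 (.pair 23 10 8) (.cutZ 1400000 (.pair 22 10 8) (.pair 22 10 27))) (.cutX 6400000 (.cutY 1100000 (.pair 23 26 8) (.cutZ 1400000 (.pair 23 25 8) (.pair 23 25 27))) (.cutY 1100000 (.cutZ 1400000 (.pair 22 26 8) (.pair 22 26 27)) (.cutZ 1400000 (.pair 22 25 28) (.pair 22 29 27)))))))) (.cutZ 2400000 (.cutY 800000 (.cutX 6200000 (.cutZ 2000000 (.pair 21 12 13) (.pair 21 18 14)) (.cutZ 2000000 (.cutX 6400000 (.pair 23 12 13) (.cutY 600000 (.pair 22 12 13) (.pair 22 24 13))) (.cutX 6400000 (.cutY 600000 (.pair 23 18 14) (.pair 23 30 14)) (.cutY 600000 (.pair 22 18 14) (.pair 22 30 14))))) (.cutX 6200000 (.cutZ 2000000 (.cutY 1000000 (.pair 21 31 13) (.cutY 1100000 (.pair 21 15 16) (.pair 21 32 16))) (.cutY 1000000 (.pair 21 17 14) (.pair 21 15 33))) (.cutZ 2000000 (.cutY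 1000000 (.cutX 6400000 (.cutZ 1800000 (.pair 23 10 13) (.pair 23 31 34)) (.cutZ 1800000 (.pair 22 10 35) (.pair 22 31 34))) (.cutX 6400000 (.cutY 1100000 (.cutZ 1800000 (.pair 23 26 35) (.pair 23 15 34)) (.cutZ 1800000 (.pair 23 32 35) (.pair 23 32 34))) (.cutY 1100000 (.cutZ 1800000 (.pair 22 26 35) (.pair 22 15 34)) (.cutZ 1800000 (.cutX 6500000 (.pair 36 32 37) (.cutY 1200000 (.pair 22 32 37) (.pair 22 38 37))) (.pair 22 32 39))))) (.cutY 1000000 (.cutX 6400000 (.pair 23 17 33) (.cutZ 2200000 (.pair 22 17 40) (.pair 22 17 41))) (.cutX 6400000 (.cutY 1100000 (.pair 23 42 33) (.pair 23 32 33)) (.cutY 1100000 (.pair 22 42 33) (.pair 22 43 33))))))) (.cutY 800000 (.cutX 6200000 (.pair 21 18 19) (.cutZ 2800000 (.pair 22 18 44) (.pair 22 18 45))) (.cutX 6200000 (.pair 21 20 46) (.cutZ 2800000 (.cutY 1000000 (.pair 22 17 44) (.pair 22 47 46)) (.pair 22 20 45))))))))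

def tree : PTree := (.cutX 6550000 (.cutY 1250000 part2 .graph) part1)

theorem tree_ok : PTree.ok bin items tree = true := by
  simp only [PTree.ok, Bool.and_eq_true]
  refine ⟨⟨by decide +kernel, ?_⟩, by decide +kernel⟩
  simp only [items, List.all_append, chunk0_ok, chunk1_ok, chunk2_ok, chunk3_ok, Bool.and_self]

end Vale.Agent.P232.GapPair.Bin7
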